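import Vale.Agent.P240.R2.H314.Two
import Vale.Agent.P240.R2.H490.Odd
import Vale.Agent.P240.R2.H490.Top

/-!
The main theorem for all primes.
-/

set_option autoImplicit false
set_option linter.all false

namespace Vale.Agent.P240.R2.H314

open Subgroup Matrix Vale.Agent.P240 Vale.Agent.P240.K Vale.Agent.P240.H195
open Vale.Agent.P240.R2 Vale.Agent.P240.R2.H63 Vale.Agent.P240.R2.H275 Vale.Agent.P240.R2.H487
open Vale.Agent.P240.R2.H487.N Vale.Agent.P240.R2.H490

universe u v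

section
variable {G : Type u} [Group G]

/-- the groups in the main theorem, `p = 2` -/
lemma AltLieTwo.facS' [Finite G] {𝕜 : Type v} [Field 𝕜] {l : ℕ} (hl : l.Prime)
    {L : Type u} [Group L] (hL : CompFactor G L) (hd : 2 ∣ Nat.card L)
    (h : FacL 𝕜 l L ∨ Other 𝕜 2 l L) : FacS 𝕜 2 l L := by
  have : Fact (Nat.Prime 2) := ⟨Nat.prime_two⟩
  have := finite_of_factor hL
  have key := fun h => AltLieTwo.facS (𝕜 := 𝕜) hl hL hd h
  rcases h with (h | h | h | h) | h
  · exact key (Or.inl h)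
  · exact key (Or.inr (Or.inl h))
  · exact key (Or.inr (Or.inr (Or.inl h)))
  · exact Or.inl (Or.inl fun _ => H613.topFac_of_cyc hL.1 hL.2.1 hd h 𝕜)
  · exact key (Or.inr (Or.inr (Or.inr h)))

lemma FacP.two {𝕜 : Type v} [Field 𝕜] (h3 : (3 : 𝕜) = 0) {L : Type u} [Group L]
    (h : FacP 2 L) : FacL 𝕜 5 L := by
  rcases h with (h | h) | h | h
  · exact Or.inl (altLie_two h3 h)
  · exact Or.inr (Or.inl h)
  · exact Or.inr (Or.inr (Or.inl h))
  · exact Or.inr (Or.inr (Or.inr h))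

/-- the groups in the main theorem -/
lemma FacP.facS {p : ℕ} (hp : p.Prime) [Finite G] {𝕜 : Type v} [Field 𝕜]
    (h3 : p = 2 → (3 : 𝕜) = 0) {L : Type u} [Group L] (hL : CompFactor G L)
    (hd : p ∣ Nat.card L) (h : FacP p L ∨ Other 𝕜 p (if p = 2 then 5 else 2) L) :
    FacS 𝕜 p (if p = 2 then 5 else 2) L := by
  have : Fact p.Prime := ⟨hp⟩
  by_cases hp2 : p = 2
  · subst hp2
    rw [if_pos rfl] at h ⊢
    exact AltLieTwo.facS' Nat.prime_five hL hd (h.imp (fun h => h.two (h3 rfl)) id)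
  · rw [if_neg hp2] at h ⊢
    refine known_facS hp2 hL hd ?_
    rcases h with (h | h | h) | h
    · exact Or.inl h
    · exact Or.inr (Or.inl h)
    · exact Or.inr (Or.inr (Or.inl h))
    · exact Or.inr (Or.inr (Or.inr h))

/-- **Main theorem**, all primes, composition factors -/
theorem all_factor {p : ℕ} (hp : p.Prime) [Finite G] {𝕜 : Type v} [Field 𝕜]
    (h3 : p = 2 → (3 : 𝕜) = 0) (hO : OpTrivial p G)
    (h : Factors p G fun L _ => FacP p L ∨ Other 𝕜 p (if p = 2 then 5 else 2) L) :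
    HQ 𝕜 p G := by
  have : Fact p.Prime := ⟨hp⟩
  refine factor_mainS ?_ hO fun L _ hL hd => FacP.facS hp h3 hL hd (h L hL hd)
  split_ifs
  exacts [Nat.prime_five, Nat.prime_two]

/-- **Main theorem**, all primes, components -/
theorem all_comp {p : ℕ} (hp : p.Prime) [Finite G] {𝕜 : Type v} [Field 𝕜]
    (h3 : p = 2 → (3 : 𝕜) = 0) (hO : OpTrivial p G) (N : Subgroup G) [N.Normal]
    (h : RedComp p N fun L _ => FacP p L ∨ Other 𝕜 p (if p = 2 then 5 else 2) L) :
    HQ 𝕜 p G := by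
  have : Fact p.Prime := ⟨hp⟩
  have hO2 := reduced_op' N h.1 h.2.1
  refine comp_mainS ?_ hO N h.1 h.2.1 fun L hL hc =>
    FacP.facS hp h3 hc (l2_dvd hO2 L hL) (h.2.2 L hL)
  split_ifs
  exacts [Nat.prime_five, Nat.prime_two]

/-- **Main theorem**, `p = 2`, composition factors, any field `𝕜`, any prime `l` -/
theorem two_factor' [Finite G] {𝕜 : Type v} [Field 𝕜] {l : ℕ} (hl : l.Prime)
    (hO : OpTrivial 2 G) (h : Factors 2 G fun L _ => FacL 𝕜 l L ∨ Other 𝕜 2 l L) :
    HQ 𝕜 2 G := by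
  have : Fact (Nat.Prime 2) := ⟨Nat.prime_two⟩
  exact factor_mainS hl hO fun L _ hL hd => AltLieTwo.facS' hl hL hd (h L hL hd)

/-- **Main theorem**, `p = 2`, components, any field `𝕜`, any prime `l` -/
theorem two_comp' [Finite G] {𝕜 : Type v} [Field 𝕜] {l : ℕ} (hl : l.Prime)
    (hO : OpTrivial 2 G) (N : Subgroup G) [N.Normal]
    (h : RedComp 2 N fun L _ => FacL 𝕜 l L ∨ Other 𝕜 2 l L) : HQ 𝕜 2 G := by
  have : Fact (Nat.Prime 2) := ⟨Nat.prime_two⟩
  have hO2 := reduced_op' N h.1 h.2.1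
  exact comp_mainS hl hO N h.1 h.2.1 fun L hL hc =>
    AltLieTwo.facS' hl hc (l2_dvd hO2 L hL) (h.2.2 L hL)

lemma zmod_three : (3 : ZMod 3) = 0 := by decide

/-- **Noncontractibility**, all primes, composition factors -/
theorem top_factor {p : ℕ} (hp : p.Prime) [Finite G] (hO : OpTrivial p G)
    (h : Factors p G fun L _ => FacP p L) : ¬ ContractibleSpace (Realization (Ap p G)) := by
  have : Fact (Nat.Prime 3) := ⟨Nat.prime_three⟩
  exact hq_not_contractible (all_factor (𝕜 := ZMod 3) hp (fun _ => zmod_three) hO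
    fun L _ hL hd => Or.inl (h L hL hd))

/-- **Noncontractibility**, all primes, components -/
theorem top_comp {p : ℕ} (hp : p.Prime) [Finite G] (hO : OpTrivial p G) (N : Subgroup G)
    [N.Normal] (h : RedComp p N fun L _ => FacP p L) :
    ¬ ContractibleSpace (Realization (Ap p G)) := by
  have : Fact (Nat.Prime 3) := ⟨Nat.prime_three⟩
  exact hq_not_contractible (all_comp (𝕜 := ZMod 3) hp (fun _ => zmod_three) hO N
    ⟨h.1, h.2.1, fun L hL => Or.inl (h.2.2 L hL)⟩)

end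

end Vale.Agent.P240.R2.H314
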