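import Vale.Agent.P240.R2.H314.All

/-!
The statements that are needed for the main theorem for `p = 2` over all fields, and the assembly.
-/

set_option autoImplicit false
set_option linter.all false

namespace Vale.Agent.P240.R2.H314

open Subgroup Matrix Vale.Agent.P240 Vale.Agent.P240.K Vale.Agent.P240.H195
open Vale.Agent.P240.R2 Vale.Agent.P240.R2.H63 Vale.Agent.P240.R2.H275 Vale.Agent.P240.R2.H487
open Vale.Agent.P240.R2.H487.N Vale.Agent.P240.R2.H490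

universe u v

/-- block (L): `PSL_n(5)`, `PSL_n(25)`, `n ≥ 8` a power of `2` -/
def StmtL (𝕜 : Type v) [Field 𝕜] : Prop :=
  ∀ (L : Type u) [Group L] [Finite L] (F : Type) [Field F] [Finite F] (n : ℕ), IsSimpleGroup L →
    (∃ x y : L, x * y ≠ y * x) → PSLn n F L → TwoPow n → 8 ≤ n →
    (Nat.card F = 5 ∨ Nat.card F = 25) → TopFac 𝕜 2 L

/-- block (P25): `PSL_4(25)` -/
def StmtP25 (𝕜 : Type v) [Field 𝕜] : Prop :=
  ∀ (L : Type u) [Group L] [Finite L] (F : Type) [Field F] [Finite F], IsSimpleGroup L →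
    (∃ x y : L, x * y ≠ y * x) → PSLn 4 F L → Nat.card F = 25 → TopFac 𝕜 2 L

/-- block (U5): `PSU_n(5)`, `n ≥ 4` even -/
def StmtU (𝕜 : Type v) [Field 𝕜] : Prop :=
  ∀ (L : Type u) [Group L] [Finite L] (F : Type) [Field F] [Finite F] (n : ℕ), IsSimpleGroup L →
    (∃ x y : L, x * y ≠ y * x) → N.PSUn n F L → 4 ≤ n → n % 2 = 0 → Nat.card F = 25 →
    TopFac 𝕜 2 L

/-- blocks (O5-), (O5+), (O25): `PΩ_n(5)`, `PΩ_n(25)`, `n` even, without `PΩ_6^+(5) ≅ PSL_4(5)` -/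
def StmtO (𝕜 : Type v) [Field 𝕜] : Prop :=
  ∀ (L : Type u) [Group L] [Finite L] (F : Type) [Field F] [Finite F] (n : ℕ), IsSimpleGroup L →
    (∃ x y : L, x * y ≠ y * x) → POn n F L → 5 ≤ n → n % 2 = 0 →
    (Nat.card F = 5 ∨ Nat.card F = 25) →
    TopFac 𝕜 2 L ∨ (n = 6 ∧ Nat.card F = 5 ∧ PSLn 4 F L)

/-- block (P5): `PSL_4(5)` satisfies the condition `GF` of the generalized elimination -/
def StmtP5 (GF : ∀ (L : Type u) [Group L], Prop) : Prop :=
  ∀ (L : Type u) [Group L] [Finite L] (F : Type) [Field F] [Finite F], IsSimpleGroup L →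
    (∃ x y : L, x * y ≠ y * x) → PSLn 4 F L → Nat.card F = 5 → GF L

/-- block (E): the main theorem with the generalized elimination -/
def StmtE (𝕜 : Type v) [Field 𝕜] (GF : ∀ (L : Type u) [Group L], Prop) : Prop :=
  ∀ (G : Type u) [Group G] [Finite G], OpTrivial 2 G → ∀ (N : Subgroup G) [N.Normal],
    ¬ 2 ∣ Nat.card N → (∀ X : Subgroup G, X.Normal → ¬ 2 ∣ Nat.card X → X ≤ N) →
    (∀ L ∈ Q.Comp (Reduced N), CompFactor (Reduced N) L → FacS 𝕜 2 3 L ∨ GF L) → HQ 𝕜 2 G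

section
variable {G : Type u} [Group G]

lemma card_three_pow {F : Type} [Field F] [Finite F] {t : ℕ} (h : Nat.card F = 3 ^ t) :
    (3 : F) = 0 := by
  have : Fintype F := Fintype.ofFinite F
  have h1 : ((Nat.card F : ℕ) : F) = 0 := by
    rw [Nat.card_eq_fintype_card]
    exact Nat.cast_card_eq_zero F
  rw [h, Nat.cast_pow] at h1
  exact_mod_cast eq_zero_of_pow_eq_zero h1

/-- the groups in the main theorem for `p = 2`, `l = 3`, all fields -/
lemma facG {𝕜 : Type v} [Field 𝕜] {GF : ∀ (L : Type u) [Group L], Prop}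
    (hSL : StmtL.{u} 𝕜) (hP25 : StmtP25.{u} 𝕜) (hU : StmtU.{u} 𝕜) (hSO : StmtO.{u} 𝕜)
    (hP5 : StmtP5 GF) [Finite G] {L : Type u} [Group L] (hL : CompFactor G L)
    (hd : 2 ∣ Nat.card L) (h : FacP 2 L ∨ Other 𝕜 2 3 L) :
    FacS 𝕜 2 3 L ∨ GF L := by
  have := finite_of_factor hL
  have key0 : FacL 𝕜 3 L ∨ Other 𝕜 2 3 L → FacS 𝕜 2 3 L := fun h =>
    AltLieTwo.facS' Nat.prime_three hL hd h
  have key : FacL 𝕜 3 L → FacS 𝕜 2 3 L := fun h => key0 (Or.inl h)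
  have top : TopFac 𝕜 2 L → FacS 𝕜 2 3 L := fun h => Or.inl (Or.inl fun _ => h)
  rcases h with ((h | h) | h) | h
  · rcases h with h | ⟨F, hF1, hF2, ⟨n, h⟩ | h | ⟨n, hn, h⟩ | ⟨n, hn, h⟩ | h⟩
    · exact Or.inl (key (Or.inl (Or.inl h)))
    · by_cases h1 : TwoPow n ∧ (Nat.card F = 5 ∨ Nat.card F = 25)
      · obtain ⟨h1, h2⟩ := h1
        obtain ⟨a, ha, hna⟩ := id h1
        by_cases h8 : 8 ≤ n
        · exact Or.inl (top (hSL L F n hL.1 hL.2.1 h h1 h8 h2))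
        · have hn4 : n = 4 := by
            have ha2 : a = 2 := by
              by_contra h0
              have h3 : 2 ^ 3 ≤ 2 ^ a := Nat.pow_le_pow_right (by norm_num) (by omega)
              omega
            rw [hna, ha2]
            norm_num
          subst hn4
          rcases h2 with h2 | h2
          · exact Or.inr (hP5 L F hL.1 hL.2.1 h h2)
          · exact Or.inl (top (hP25 L F hL.1 hL.2.1 h h2))
      · refine Or.inl (key (Or.inl (Or.inr ⟨F, hF1, hF2, Or.inl ⟨n, fun h2 h3 => ?_, h⟩⟩)))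
        have h4 : Nat.card F = 3 ∨ Nat.card F = 5 ∨ Nat.card F = 9 ∨ Nat.card F = 25 := h3
        refine Or.inl (Or.inl ?_)
        rcases h4 with h4 | h4 | h4 | h4
        · exact_mod_cast card_three_pow (t := 1) (by rw [h4, pow_one])
        · exact absurd ⟨h2, Or.inl h4⟩ h1
        · exact_mod_cast card_three_pow (t := 2) (by rw [h4]; norm_num)
        · exact absurd ⟨h2, Or.inr h4⟩ h1
    · exact Or.inl (key (Or.inl (Or.inr ⟨F, hF1, hF2, Or.inr (Or.inl h)⟩)))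
    · by_cases h1 : n % 2 = 0 ∧ Nat.card F = 25
      · exact Or.inl (top (hU L F n hL.1 hL.2.1 h (by omega) h1.1 h1.2))
      · refine Or.inl (key (Or.inl (Or.inr ⟨F, hF1, hF2, Or.inr (Or.inr (Or.inl
          ⟨n, hn, fun h2 => Or.inl ?_, h⟩))⟩)))
        rcases h2 with h2 | h2
        · exact_mod_cast card_three_pow (t := 2) (by rw [h2.1]; norm_num)
        · exact absurd ⟨h2.2, h2.1⟩ h1
    · by_cases h1 : n % 2 = 0 ∧ (Nat.card F = 5 ∨ Nat.card F = 25)
      · rcases hSO L F n hL.1 hL.2.1 h hn h1.1 h1.2 with h2 | ⟨-, h2, h3⟩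
        · exact Or.inl (top h2)
        · exact Or.inr (hP5 L F hL.1 hL.2.1 h3 h2)
      · refine Or.inl (key (Or.inl (Or.inr ⟨F, hF1, hF2, Or.inr (Or.inr (Or.inr (Or.inl
          ⟨n, hn, fun h2 => Or.inl ?_, h⟩)))⟩)))
        have h4 : Nat.card F = 3 ∨ Nat.card F = 5 ∨ Nat.card F = 9 ∨ Nat.card F = 25 := h2.1
        rcases h4 with h4 | h4 | h4 | h4
        · exact_mod_cast card_three_pow (t := 1) (by rw [h4, pow_one])
        · exact absurd ⟨h2.2, Or.inl h4⟩ h1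
        · exact_mod_cast card_three_pow (t := 2) (by rw [h4]; norm_num)
        · exact absurd ⟨h2.2, Or.inr h4⟩ h1
    · exact Or.inl (key (Or.inl (Or.inr ⟨F, hF1, hF2, Or.inr (Or.inr (Or.inr (Or.inr h)))⟩)))
  · exact Or.inl (key (Or.inr (Or.inl h)))
  · exact Or.inl (key (Or.inr (Or.inr h)))
  · exact Or.inl (key0 (Or.inr h))

/-- **Main theorem**, `p = 2`, components, all fields -/
theorem rat_comp {𝕜 : Type v} [Field 𝕜] {GF : ∀ (L : Type u) [Group L], Prop}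
    (hSL : StmtL.{u} 𝕜) (hP25 : StmtP25.{u} 𝕜) (hU : StmtU.{u} 𝕜) (hSO : StmtO.{u} 𝕜)
    (hP5 : StmtP5 GF) (hE : StmtE 𝕜 GF) [Finite G] (hO : OpTrivial 2 G) (N : Subgroup G)
    [N.Normal] (h : RedComp 2 N fun L _ => FacP 2 L ∨ Other 𝕜 2 3 L) : HQ 𝕜 2 G := by
  have : Fact (Nat.Prime 2) := ⟨Nat.prime_two⟩
  have hO2 := reduced_op' N h.1 h.2.1
  exact hE G hO N h.1 h.2.1 fun L hL hc =>
    facG hSL hP25 hU hSO hP5 hc (l2_dvd hO2 L hL) (h.2.2 L hL)

end

end Vale.Agent.P240.R2.H314
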