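import Vale.Agent.P240.H138.T6
import Vale.Agent.P240.R2.H314.RatS
import Vale.Agent.P240.R2.H63.P4c
import Vale.Agent.P240.R2.H945.U4G

/-!
The statements of `H138.T6` imply those of `RatS`.
-/

set_option autoImplicit false
set_option linter.all false

namespace Vale.Agent.P240.R2.H314

open Subgroup Matrix Vale.Agent.P240 Vale.Agent.P240.K Vale.Agent.P240.H195
open Vale.Agent.P240.R2 Vale.Agent.P240.R2.H63 Vale.Agent.P240.R2.H275 Vale.Agent.P240.R2.H487
open Vale.Agent.P240.R2.H487.N Vale.Agent.P240.R2.H490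
open Vale.Agent.P240.R2.OF (POm dl)

universe u v w

theorem stmtL_of (h : H138.T6.StmtL.{u, v}) (𝕜 : Type v) [Field 𝕜] : StmtL.{u, v} 𝕜 := by
  rintro L _ _ F _ _ n hs hab ⟨e⟩ ⟨a, ha, rfl⟩ h8 hc
  refine h 𝕜 a ?_ hc hs e
  by_contra h0
  have h1 : 2 ^ a ≤ 2 ^ 2 := Nat.pow_le_pow_right (by norm_num) (by omega)
  omega

section
variable {F : Type} [Field F] [Finite F]

lemma exists_ns (h2 : (2 : F) ≠ 0) : ∃ δ : F, ¬ IsSquare δ := by
  have := Fintype.ofFinite F
  refine FiniteField.exists_nonsquare fun h => h2 ?_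
  have h3 := ringChar.Nat.cast_ringChar (R := F)
  rw [h] at h3
  exact_mod_cast h3

lemma two_ne_five {F : Type} [Field F] [Finite F] {t : ℕ} (h : Nat.card F = 5 ^ t) :
    (2 : F) ≠ 0 := by
  have : Fintype F := Fintype.ofFinite F
  intro h2
  have h1 : ((Nat.card F : ℕ) : F) = 0 := by
    rw [Nat.card_eq_fintype_card]
    exact Nat.cast_card_eq_zero F
  rw [h, Nat.cast_pow] at h1
  have h3 : (5 : F) = 0 := by exact_mod_cast eq_zero_of_pow_eq_zero h1
  have h4 : (1 : F) = 0 := by linear_combination h3 - 2 * h2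
  exact one_ne_zero h4

lemma neg_one_sq {F : Type} [Field F] [Finite F] (h : Nat.card F = 5 ∨ Nat.card F = 25) :
    IsSquare (-1 : F) := by
  have : Fintype F := Fintype.ofFinite F
  rw [FiniteField.isSquare_neg_one_iff, ← Nat.card_eq_fintype_card]
  omega

/-- congruence of forms of square determinant -/
lemma pom_one {m : ℕ} (h2 : (2 : F) ≠ 0) {A : Matrix (Fin (m + 1)) (Fin (m + 1)) F} (hA : Aᵀ = A)
    (h0 : A.det ≠ 0) (hsq : IsSquare A.det) :
    Nonempty (POm A ≃* POm (1 : Matrix (Fin (m + 1)) (Fin (m + 1)) F)) := by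
  have := Fintype.ofFinite F
  obtain ⟨δ, hδ⟩ := exists_ns h2
  rcases OF.congr_all h2 hδ hA h0 with ⟨P, hP⟩ | ⟨P, hP⟩
  · exact OF.nonempty_POm (c := 1) one_ne_zero (hP.trans (one_smul F _).symm)
  · exfalso
    apply hδ
    have h4 : δ = P.1.det * A.det * P.1.det := by
      rw [← OF.dl_det (m := m) δ, ← hP, det_mul, det_mul, det_transpose]
    obtain ⟨s, hs⟩ := hsq
    exact ⟨P.1.det * s, by rw [h4, hs]; ring⟩

/-- `PSL_4(F)`, `-1` a square -/
lemma psl4_one (h : Nat.card F = 5 ∨ Nat.card F = 25) :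
    Nonempty (ProjectiveSpecialLinearGroup (Fin 4) F ≃*
      POm (1 : Matrix (Fin 6) (Fin 6) F)) := by
  have h2 : (2 : F) ≠ 0 := by
    rcases h with h | h
    · exact two_ne_five (t := 1) (by rw [h, pow_one])
    · exact two_ne_five (t := 2) (by rw [h]; norm_num)
  obtain ⟨f⟩ := H63.P4.psl4_iso (F := F) h2
  have hdet : (diagonal (H945.U4.dd (1 : F))).det = -1 := by
    rw [det_diagonal]
    simp [H945.U4.dd, Fin.prod_univ_succ]
  obtain ⟨g⟩ := pom_one (m := 5) h2 (A := diagonal (H945.U4.dd (1 : F)))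
    (diagonal_transpose _) (by rw [hdet]; exact neg_ne_zero.2 one_ne_zero)
    (by rw [hdet]; exact neg_one_sq h)
  exact ⟨f.trans g⟩

end

attribute [local instance] starRingOfComm

theorem stmtP25_of (h : H138.T6.StmtO25.{u, v}) (𝕜 : Type v) [Field 𝕜] : StmtP25.{u, v} 𝕜 := by
  rintro L _ _ F _ _ hs hab ⟨e⟩ hc
  have := Fintype.ofFinite F
  obtain ⟨f⟩ := psl4_one (F := F) (Or.inr hc)
  exact h 𝕜 (fun _ => rfl) hc (by decide : Even 6) le_rfl (e.trans (f.trans OF.pomOne))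

theorem stmtO_of (h25 : H138.T6.StmtO25.{u, v}) (h5p : H138.T6.StmtO5p.{u, v})
    (h5m : H138.T6.StmtO5m.{u, v}) (𝕜 : Type v) [Field 𝕜] : StmtO.{u, v} 𝕜 := by
  rintro L _ _ F _ _ n hs hab h hn5 hev hc
  have := Fintype.ofFinite F
  have h2 : (2 : F) ≠ 0 := by
    rcases hc with h | h
    · exact two_ne_five (t := 1) (by rw [h, pow_one])
    · exact two_ne_five (t := 2) (by rw [h]; norm_num)
  obtain ⟨Q, hQ, ⟨e⟩⟩ := h.eq
  obtain ⟨A, hA, hA0, ⟨e'⟩⟩ := H432.Q.poq_pom h2 Q hQ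
  obtain ⟨m, rfl⟩ : ∃ m, n = m + 1 := ⟨n - 1, by omega⟩
  obtain ⟨δ, hδ⟩ := exists_ns h2
  rcases OF.congr_all h2 hδ hA hA0 with ⟨P, hP⟩ | ⟨P, hP⟩
  · obtain ⟨f⟩ := OF.nonempty_POm (c := 1) one_ne_zero (hP.trans (one_smul F _).symm)
    rcases hc with hc | hc
    · by_cases h6 : m + 1 = 6
      · obtain rfl : m = 5 := by omega
        obtain ⟨g⟩ := psl4_one (F := F) (Or.inl hc)
        exact Or.inr ⟨rfl, hc, ⟨(e.trans (e'.trans f)).trans g.symm⟩⟩
      · exact Or.inl (h5p 𝕜 (fun _ => rfl) hc (Nat.even_iff.2 hev) (by omega)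
          (e.trans (e'.trans (f.trans OF.pomOne))))
    · exact Or.inl (h25 𝕜 (fun _ => rfl) hc (Nat.even_iff.2 hev) (by omega)
        (e.trans (e'.trans (f.trans OF.pomOne))))
  · obtain ⟨f⟩ := OF.nonempty_POm (c := 1) one_ne_zero (hP.trans (one_smul F _).symm)
    left
    have hm : Odd m := by
      rw [Nat.odd_iff]
      omega
    rcases hc with hc | hc
    · exact h5m 𝕜 hc hm (by omega) hδ (e.trans (e'.trans (f.trans (OF.pomFd m δ))))
    · intro G _ _ M ⟨g⟩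
      exact H401.D.stmtD F m δ ⟨by rw [hc]; decide, by rw [hc]; norm_num, hm, by omega, hδ⟩ G M
        ⟨((OF.pomFd m δ).symm.trans (f.symm.trans (e'.symm.trans e.symm))).trans g⟩ 𝕜

end Vale.Agent.P240.R2.H314
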