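import Vale.Agent.P240.R2.H314.Conv

/-!
The statements of `H138.T6` imply those of `RatS`: unitary groups.
-/

set_option autoImplicit false
set_option linter.all false

namespace Vale.Agent.P240.R2.H314

open Subgroup Matrix Vale.Agent.P240 Vale.Agent.P240.K Vale.Agent.P240.H195
open Vale.Agent.P240.R2 Vale.Agent.P240.R2.H63 Vale.Agent.P240.R2.H275 Vale.Agent.P240.R2.H487
open Vale.Agent.P240.R2.H487.N Vale.Agent.P240.R2.H490
open Vale.Agent.P240.R2.OF (POm dl)

universe u v w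

open scoped Classical in
/-- `PSU_4(5)` -/
theorem psu4_five (h5m : H138.T6.StmtO5m.{u, v}) {K : Type} [Field K] [Fintype K] [StarRing K]
    (𝕜 : Type v) [Field 𝕜] (hF : H986.E.Fld K 5) {L : Type u} [Group L] (hL : IsSimpleGroup L)
    (e : L ≃* AS.PSU K 4) : TopFac 𝕜 2 L := by
  obtain ⟨hc, h⟩ := H945.U4.psu4_one hF (by norm_num) (H945.U4.simple_congr e hL)
  have h2 : (2 : H281.fx K) ≠ 0 := two_ne_five (t := 1) (by rw [hc, pow_one])
  obtain ⟨d, hd⟩ := exists_ns h2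
  obtain ⟨f⟩ := h d hd
  exact h5m 𝕜 hc (by decide : Odd 5) le_rfl hd ((e.trans f).trans (OF.pomFd 5 d))

theorem stmtU_of (h5m : H138.T6.StmtO5m.{u, v}) (hU : H138.T6.StmtU5.{u, v}) (𝕜 : Type v)
    [Field 𝕜] : StmtU.{u, v} 𝕜 := by
  rintro L _ _ F _ _ n hs hab h hn4 hev hc
  obtain ⟨r, hr, hrF⟩ := exists_char' F
  have hr2 : r ≠ 2 := by
    rintro rfl
    exact two_ne_five (F := F) (t := 2) (by rw [hc]; norm_num) (by exact_mod_cast hrF)
  obtain ⟨q, hft, hstar, hqo, hq3, hK, hst, ⟨e⟩⟩ := h.is.data hr hrF hr2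
  have hq : q = 5 := by
    rw [hc] at hK
    have h1 : q < 6 := by
      by_contra h0
      have h2 : 6 ^ 2 ≤ q ^ 2 := Nat.pow_le_pow_left (by omega) 2
      omega
    interval_cases q <;> omega
  subst hq
  by_cases h4 : n = 4
  · subst h4
    exact psu4_five h5m 𝕜 ⟨hqo, hK, hst⟩ hs e
  · exact hU 𝕜 hc hst (Nat.even_iff.2 hev) (by omega) hs e

end Vale.Agent.P240.R2.H314
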