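import Vale.Agent.P240.R2.H490.D

/-!
The known simple groups, for all primes.
-/

set_option autoImplicit false

namespace Vale.Agent.P240.R2.H314

open Vale.Agent.P240 Vale.Agent.P240.R2.H487.N Vale.Agent.P240.R2.H490

/-- `L` is as in `AltLieAll`, and the characteristic of `F` is `l` or the characteristic of `𝕜` for
certain classical groups over the fields with `3`, `5`, `9` and `25` elements. -/
def AltLieTwo (𝕜 : Type*) [Field 𝕜] (l : ℕ) (L : Type*) [Group L] : Prop :=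
  Alt L ∨ ∃ (F : Type) (_ : Field F) (_ : Finite F),
    (∃ n : ℕ, (TwoPow n → H487.N.Small F → CharIn 𝕜 l F ∨ (l = 2 ∧ Nat.card F = 3 ∧ n ≠ 8)) ∧
      PSLn n F L) ∨ PSp F L ∨
    (∃ n : ℕ, 3 ≤ n ∧ (SmallV n F → CharIn 𝕜 l F) ∧ PSUn n F L) ∨
    (∃ n : ℕ, 5 ≤ n ∧ (SmallO n F → CharIn 𝕜 l F) ∧ POn n F L) ∨ ExcAll F L

/-- The groups in the main theorem: known groups, and groups as in `OrdFree` and `CycAut`. -/
def FacP (p : ℕ) (L : Type*) [Group L] : Prop :=
  Known p L ∨ H63.OrdFree p L ∨ CycAut p L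

/-- The groups in the main theorem for the prime `2` and a prime `l`. -/
def FacL (𝕜 : Type*) [Field 𝕜] (l : ℕ) (L : Type*) [Group L] : Prop :=
  AltLieTwo 𝕜 l L ∨ SmallOut 2 L ∨ H63.OrdFree 2 L ∨ CycAut 2 L

end Vale.Agent.P240.R2.H314
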