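import Vale.Agent.P240.H195.Defs
import Vale.Agent.P240.R2.H490.D

/-!
The groups in the final form of the main theorem.
-/

set_option autoImplicit false

namespace Vale.Agent.P240.R2.H314

open Vale.Agent.P240 Vale.Agent.P240.R2.H487.N Vale.Agent.P240.R2.H490

/-- The group `Out(L)` has order at most `2`, and for a prime `r` the group `L` has an `r`-subgroup
such that no nontrivial elementary abelian `p`-group of automorphisms of `L` is normalized by the
inner automorphisms given by this subgroup. -/
def NormFree (p : ℕ) (L : Type*) [Group L] : Prop :=
  (MulAut.conj (G := L)).range.index ≤ 2 ∧ ∃ r : ℕ, r.Prime ∧ H195.AutFree p r L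

/-- The groups in the main theorem: alternating groups, groups of Lie type over finite fields, and
groups as in `OrdFree`, `CycAut`, `NormFree` (the sporadic groups satisfy one of these conditions)
or `SmallOut`. -/
def FacA (p : ℕ) (L : Type*) [Group L] : Prop :=
  AltLieAll L ∨ H63.OrdFree p L ∨ CycAut p L ∨ NormFree p L ∨ SmallOut p L

end Vale.Agent.P240.R2.H314
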