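import Vale.Agent.P240.R2.H314.ConvU

/-!
The final assembly: all primes, all fields, from the blocks of `H138.T6` and the generalized
elimination.
-/

set_option autoImplicit false
set_option linter.all false

namespace Vale.Agent.P240.R2.H314

open Subgroup Matrix Vale.Agent.P240 Vale.Agent.P240.K Vale.Agent.P240.H195
open Vale.Agent.P240.R2 Vale.Agent.P240.R2.H63 Vale.Agent.P240.R2.H275 Vale.Agent.P240.R2.H487
open Vale.Agent.P240.R2.H487.N Vale.Agent.P240.R2.H490

universe u v

/-- all blocks -/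
structure Blocks (GF : ∀ (L : Type u) [Group L], Prop) : Prop where
  L : H138.T6.StmtL.{u, 0}
  O25 : H138.T6.StmtO25.{u, 0}
  O5p : H138.T6.StmtO5p.{u, 0}
  O5m : H138.T6.StmtO5m.{u, 0}
  U5 : H138.T6.StmtU5.{u, 0}
  P5 : StmtP5 GF
  E : StmtE ℚ GF

section
variable {G : Type u} [Group G] {GF : ∀ (L : Type u) [Group L], Prop}

/-- **Main theorem**, `p = 2`, components, over `ℚ` -/
theorem Blocks.comp (hB : Blocks GF) [Finite G] (hO : OpTrivial 2 G) (N : Subgroup G)
    [N.Normal] (h : RedComp 2 N fun L _ => FacP 2 L ∨ Other ℚ 2 3 L) : HQ ℚ 2 G :=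
  rat_comp (stmtL_of hB.L ℚ) (stmtP25_of hB.O25 ℚ) (stmtU_of hB.O5m hB.U5 ℚ)
    (stmtO_of hB.O25 hB.O5p hB.O5m ℚ) hB.P5 hB.E hO N h

/-- composition factors of the centralizer of a normal subgroup -/
lemma redComp_of_factors [Finite G] {p : ℕ} [hp : Fact p.Prime] (hO : OpTrivial p G)
    {P : ∀ (L : Type u) [Group L], Prop} (h : Factors p G P) :
    ∃ (N : Subgroup G) (_ : N.Normal), RedComp p N P := by
  obtain ⟨N, hNn, hN, hmax⟩ := l2_exists_pprime (p := p) (H := G)
  have hO1 := reduced_op hO N hN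
  have hO2 := reduced_op' N hN hmax
  refine ⟨N, hNn, hN, hmax, fun L hL => ?_⟩
  have h1 : CompFactor (Reduced N) L := comp_factor hO1 hO2 hL
  have h2 : CompFactor (centralizer (N : Set G)) L :=
    h1.of_map (QuotientGroup.mk' _) (QuotientGroup.mk'_surjective _)
  have h3 : CompFactor G L :=
    h2.of_sub (inferInstance : (centralizer (N : Set G)).Normal).isSubnormal
  exact h L h3 (l2_dvd hO2 L hL)

/-- **Main theorem**, `p = 2`, composition factors, over `ℚ` -/
theorem Blocks.factor (hB : Blocks GF) [Finite G] (hO : OpTrivial 2 G)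
    (h : Factors 2 G fun L _ => FacP 2 L ∨ Other ℚ 2 3 L) : HQ ℚ 2 G := by
  have : Fact (Nat.Prime 2) := ⟨Nat.prime_two⟩
  obtain ⟨N, hN, h1⟩ := redComp_of_factors hO h
  exact hB.comp hO N h1

/-- **Main theorem**, all primes, all fields, components -/
theorem Blocks.all_comp (hB : Blocks GF) {p : ℕ} (hp : p.Prime) [Finite G] (hO : OpTrivial p G)
    (N : Subgroup G) [N.Normal] (h : RedComp p N fun L _ => FacP p L) (𝕜 : Type v) [Field 𝕜] :
    HQ 𝕜 p G := by
  refine hq_of_rat ?_
  by_cases hp2 : p = 2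
  · subst hp2
    exact hB.comp hO N ⟨h.1, h.2.1, fun L hL => Or.inl (h.2.2 L hL)⟩
  · exact H314.all_comp hp (fun h0 => absurd h0 hp2) hO N
      ⟨h.1, h.2.1, fun L hL => Or.inl (h.2.2 L hL)⟩

/-- **Main theorem**, all primes, all fields, composition factors -/
theorem Blocks.all_factor (hB : Blocks GF) {p : ℕ} (hp : p.Prime) [Finite G]
    (hO : OpTrivial p G) (h : Factors p G fun L _ => FacP p L) (𝕜 : Type v) [Field 𝕜] :
    HQ 𝕜 p G := by
  have : Fact p.Prime := ⟨hp⟩
  obtain ⟨N, hN, h1⟩ := redComp_of_factors hO h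
  exact hB.all_comp hp hO N h1 𝕜

end

end Vale.Agent.P240.R2.H314
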