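import Vale.Agent.P240.R2.H314.Fin
import Vale.Agent.P240.R2.H314.DA
import Vale.Agent.P240.R2.H458.G7

/-!
The final assembly.
-/

set_option autoImplicit false
set_option linter.all false

namespace Vale.Agent.P240.R2.H314

open Subgroup Matrix Vale.Agent.P240 Vale.Agent.P240.K Vale.Agent.P240.H195
open Vale.Agent.P240.R2 Vale.Agent.P240.R2.H63 Vale.Agent.P240.R2.H275 Vale.Agent.P240.R2.H487
open Vale.Agent.P240.R2.H487.N Vale.Agent.P240.R2.H490

universe u v

/-- the generalized elimination -/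
theorem stmtE_rat : StmtE.{u, 0} ℚ fun L _ => H458.GFac ℚ 2 L :=
  fun _ _ _ hO N _ hN hmax h => by
    have : Fact (Nat.Prime 2) := ⟨Nat.prime_two⟩
    exact H458.comp_mainM Nat.prime_three hO N hN hmax h

/-- the blocks that are still needed -/
structure BlocksR : Prop where
  L : H138.T6.StmtL.{u, 0}
  O25 : H138.T6.StmtO25.{u, 0}
  O5p : H138.T6.StmtO5p.{u, 0}
  O5m : H138.T6.StmtO5m.{u, 0}
  U5 : H138.T6.StmtU5.{u, 0}
  P5 : StmtP5.{u} fun L _ => H458.GFac ℚ 2 L

theorem BlocksR.blocks (h : BlocksR.{u}) : Blocks.{u} fun L _ => H458.GFac ℚ 2 L :=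
  ⟨h.L, h.O25, h.O5p, h.O5m, h.U5, h.P5, stmtE_rat⟩

lemma NormFree.smallOut {p : ℕ} {L : Type u} [Group L] [Finite L] (h : NormFree p L) :
    SmallOut p L := by
  obtain ⟨h1, r, hr, h2⟩ := h
  exact ⟨h1, fun A hA => h2.hq hr A hA⟩

lemma FacA.facP {p : ℕ} {L : Type u} [Group L] [Finite L] (h : FacA p L) : FacP p L := by
  rcases h with h | h | h | h | h
  · exact Or.inl (Or.inl h)
  · exact Or.inr (Or.inl h)
  · exact Or.inr (Or.inr h)
  · exact Or.inl (Or.inr h.smallOut)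
  · exact Or.inl (Or.inr h)

section
variable {G : Type u} [Group G]

lemma facA_redComp [Finite G] {p : ℕ} {N : Subgroup G} [N.Normal]
    (h : RedComp p N fun L _ => FacA p L) : RedComp p N fun L _ => FacP p L :=
  ⟨h.1, h.2.1, fun L hL => (h.2.2 L hL).facP⟩

/-- **Main theorem**, components -/
theorem fin_comp (hB : BlocksR.{u}) {p : ℕ} (hp : p.Prime) [Finite G] (hO : OpTrivial p G)
    (N : Subgroup G) [N.Normal] (h : RedComp p N fun L _ => FacA p L) :
    ¬ ContractibleSpace (Realization (Ap p G)) ∧ ∀ (𝕜 : Type v) [Field 𝕜], HQ 𝕜 p G :=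
  ⟨hq_not_contractible (hB.blocks.all_comp hp hO N (facA_redComp h) ℚ),
    fun 𝕜 _ => hB.blocks.all_comp hp hO N (facA_redComp h) 𝕜⟩

/-- **Main theorem**, composition factors -/
theorem fin_factor (hB : BlocksR.{u}) {p : ℕ} (hp : p.Prime) [Finite G] (hO : OpTrivial p G)
    (h : Factors p G fun L _ => FacA p L) :
    ¬ ContractibleSpace (Realization (Ap p G)) ∧ ∀ (𝕜 : Type v) [Field 𝕜], HQ 𝕜 p G := by
  have : Fact p.Prime := ⟨hp⟩
  obtain ⟨N, hN, h1⟩ := redComp_of_factors hO h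
  exact fin_comp hB hp hO N h1

end

end Vale.Agent.P240.R2.H314
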