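import Vale.Agent.P240.R2.H314.Fin2
import Vale.Agent.P240.R2.H928.W6
import Vale.Agent.P240.R2.H667.O5m
import Vale.Agent.P240.R2.H406.Fin
import Vale.Agent.P240.R2.H493.O5c
import Vale.Agent.P240.R2.H490.P5L
import Vale.Agent.P240.H138.O25

/-!
The final assembly: the blocks (L), (U5), (O5-), (O5+), (O25).
-/

set_option autoImplicit false
set_option linter.all false

namespace Vale.Agent.P240.R2.H314

open Vale.Agent.P240 Vale.Agent.P240.R2

universe u v

theorem stmtO5p : H138.T6.StmtO5p.{u, v} := H493.O5.stmtO5p_of H406.stmtKer H406.stmtAut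

/-- the block that is still needed -/
theorem blocksR_of (hP : StmtP5.{u} fun L _ => H458.GFac ℚ 2 L) : BlocksR.{u} :=
  ⟨H490.stmtL, H138.O25.stmtO25, stmtO5p, H667.stmtO5m, H928.stmtU5, hP⟩

end Vale.Agent.P240.R2.H314
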