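import Vale.Agent.P240.R2.H314.Fin4
import Vale.Agent.P240.R2.H406.Cy

/-!
The main theorem for all primes and all fields.
-/

set_option autoImplicit false
set_option linter.all false

namespace Vale.Agent.P240.R2.H314

open Vale.Agent.P240 Vale.Agent.P240.K Vale.Agent.P240.R2
open Vale.Agent.P240.R2.H487.N Vale.Agent.P240.R2.H490

universe u v

/-- **Main theorem**, components -/
theorem main_comp {G : Type u} [Group G] {p : ℕ} (hp : p.Prime) [Finite G]
    (hO : OpTrivial p G) (N : Subgroup G) [N.Normal] (h : RedComp p N fun L _ => FacA p L) :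
    ¬ ContractibleSpace (Realization (Ap p G)) ∧ ∀ (𝕜 : Type v) [Field 𝕜], HQ 𝕜 p G :=
  main_comp_of (H406.Cy6.autG6 ℚ) hp hO N h

/-- **Main theorem**, composition factors -/
theorem main_factor {G : Type u} [Group G] {p : ℕ} (hp : p.Prime) [Finite G]
    (hO : OpTrivial p G) (h : Factors p G fun L _ => FacA p L) :
    ¬ ContractibleSpace (Realization (Ap p G)) ∧ ∀ (𝕜 : Type v) [Field 𝕜], HQ 𝕜 p G :=
  main_factor_of (H406.Cy6.autG6 ℚ) hp hO h

end Vale.Agent.P240.R2.H314
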