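import Vale.Agent.P240.R2.H314.Fin3
import Vale.Agent.P240.R2.H493.Iso6

/-!
Block (P5) from the property `AutG` of `PΩ_6^+(5)`.
-/

set_option autoImplicit false
set_option linter.all false

namespace Vale.Agent.P240.R2.H314

open Vale.Agent.P240 Vale.Agent.P240.R2 Vale.Agent.P240.H195 Vale.Agent.P240.R2.H406
open Vale.Agent.P240.R2.H458

universe u v

theorem stmtP5_of (h : AutG ℚ (Lam a1)) : StmtP5.{u} fun L _ => GFac ℚ 2 L := by
  intro L _ _ F _ _ hs hab hL h5
  obtain ⟨e⟩ := H493.O5.stmtIso6 L F hL h5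
  intro G _ _ M hf
  obtain ⟨f⟩ := hf
  refine locG_of_autG (e.trans f) (fun x hx => ?_) h
  refine e.injective ?_
  rw [map_one]
  refine centreless_of_simple hs hab (e x) fun y => ?_
  obtain ⟨y, rfl⟩ := e.surjective y
  rw [← map_mul, hx, map_mul]

end Vale.Agent.P240.R2.H314
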