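import Vale.Agent.P240.H138.Main
import Vale.Agent.P240.R2.H314.D
import Vale.Agent.P240.R2.H487.N.M4
import Vale.Agent.P240.R2.H490.Few
import Vale.Agent.P240.R2.N402.Main
import Vale.Agent.P240.R2.N402.TM

/-!
The main theorem for the prime `2`, without exceptions.
-/

set_option autoImplicit false
set_option linter.all false

namespace Vale.Agent.P240.R2.H314

open Subgroup Matrix Vale.Agent.P240 Vale.Agent.P240.K Vale.Agent.P240.H195
open Vale.Agent.P240.R2 Vale.Agent.P240.R2.H63 Vale.Agent.P240.R2.H275 Vale.Agent.P240.R2.H487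
open Vale.Agent.P240.R2.H487.N Vale.Agent.P240.R2.H490

universe u v

section
variable {L : Type u} [Group L] {F : Type} [Field F] [Finite F]

/-- `E₆(F)` -/
lemma e6_two [Finite L] (h : H165.IsChevA CartanMatrix.E₆ F L) (hs : IsSimpleGroup L)
    (hab : ∃ x y : L, x * y ≠ y * x) : Exc 2 ((2 : F) = 0) F L ∨ EuFree 2 L := by
  by_cases h2 : (2 : F) = 0
  · exact Or.inl (Or.inr ⟨h2, Or.inl h⟩)
  · exact Or.inr (H138.euFree_E6 (N402.isE6Mod h hs hab) hs hab h2)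

/-- `²E₆(q)` -/
lemma tw_two [Finite L] (h : H945.Is2E6 F L) (hs : IsSimpleGroup L)
    (hab : ∃ x y : L, x * y ≠ y * x) : Exc 2 ((2 : F) = 0) F L ∨ EuFree 2 L := by
  by_cases h2 : (2 : F) = 0
  · exact Or.inl (Or.inr ⟨h2, Or.inr h⟩)
  · exact Or.inr (N402.euFree_2E6 h hs hab h2)

end

section
variable {G : Type u} [Group G]

/-- exceptional groups -/
lemma exc_facS [Finite G] {𝕜 : Type v} [Field 𝕜] {l : ℕ} (hl : l.Prime)
    {L : Type u} [Group L] (hL : CompFactor G L) (hd : 2 ∣ Nat.card L) {F : Type} [Field F]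
    [Finite F] (h : ExcAll F L) : FacS 𝕜 2 l L := by
  have : Fact (Nat.Prime 2) := ⟨Nat.prime_two⟩
  have := finite_of_factor hL
  have exc : Exc 2 ((2 : F) = 0) F L → FacS 𝕜 2 l L := fun h =>
    AltLieAt.facS hl hL (Or.inl (Or.inr (Or.inr ⟨F, _, ‹_›, Or.inr (Or.inr (Or.inr (Or.inr
      (h.imp id fun h => ⟨Or.inl h.1, h.2⟩))))⟩)))
  have eu : EuFree 2 L → FacS 𝕜 2 l L := fun h =>
    AltLieAt.facS hl hL (Or.inr (Or.inl (Or.inr (Or.inr (Or.inl ⟨h, hd⟩)))))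
  rcases h with h | h | h | h | h | h | h | h
  · exact exc (Or.inl (Or.inl h))
  · exact (e6_two h hL.1 hL.2.1).elim exc eu
  · exact exc (Or.inl (Or.inr (Or.inl h)))
  · exact exc (Or.inl (Or.inr (Or.inr (Or.inr (Or.inl h)))))
  · exact (tw_two h hL.1 hL.2.1).elim exc eu
  · exact exc (Or.inl (Or.inr (Or.inr (Or.inr (Or.inr (Or.inr (Or.inl h)))))))
  · exact exc (Or.inl (Or.inr (Or.inr (Or.inr (Or.inr (Or.inr (Or.inr (Or.inl h))))))))
  · exact exc (Or.inl (Or.inr (Or.inr (Or.inr (Or.inr (Or.inr (Or.inr (Or.inr h))))))))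

/-- the groups in the main theorem, `p = 2` -/
lemma AltLieTwo.facS [Finite G] {𝕜 : Type v} [Field 𝕜] {l : ℕ} (hl : l.Prime)
    {L : Type u} [Group L] (hL : CompFactor G L) (hd : 2 ∣ Nat.card L)
    (h : AltLieTwo 𝕜 l L ∨ SmallOut 2 L ∨ OrdFree 2 L ∨ Other 𝕜 2 l L) : FacS 𝕜 2 l L := by
  have := finite_of_factor hL
  have old : AltLieAt 𝕜 l L ∨ Other 𝕜 2 l L → FacS 𝕜 2 l L := AltLieAt.facS hl hL
  rcases h with (h | ⟨F, hF1, hF2, h | h | h | h | h⟩) | h | h | h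
  · exact old (Or.inl (Or.inl h))
  · exact old (Or.inl (Or.inr (Or.inr ⟨F, hF1, hF2, Or.inl h⟩)))
  · exact old (Or.inl (Or.inr (Or.inr ⟨F, hF1, hF2, Or.inr (Or.inl h)⟩)))
  · exact old (Or.inl (Or.inr (Or.inr ⟨F, hF1, hF2, Or.inr (Or.inr (Or.inl h))⟩)))
  · exact old (Or.inl (Or.inr (Or.inr ⟨F, hF1, hF2, Or.inr (Or.inr (Or.inr (Or.inl h)))⟩)))
  · exact exc_facS hl hL hd h
  · exact old (Or.inr h.other)
  · exact old (Or.inl (Or.inr (Or.inl h)))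
  · exact old (Or.inr h)

lemma altLie_two {𝕜 : Type v} [Field 𝕜] (h3 : (3 : 𝕜) = 0) {L : Type u} [Group L]
    (h : AltLieAll L) : AltLieTwo 𝕜 5 L := by
  refine h.imp id fun h => ?_
  obtain ⟨F, hF1, hF2, ⟨n, h⟩ | h | ⟨n, hn, h⟩ | ⟨n, hn, h⟩ | h⟩ := h
  · exact ⟨F, hF1, hF2, Or.inl ⟨n, fun _ h => Or.inl (h.charIn h3), h⟩⟩
  · exact ⟨F, hF1, hF2, Or.inr (Or.inl h)⟩
  · exact ⟨F, hF1, hF2, Or.inr (Or.inr (Or.inl ⟨n, hn, fun h => h.charIn h3, h⟩))⟩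
  · exact ⟨F, hF1, hF2, Or.inr (Or.inr (Or.inr (Or.inl ⟨n, hn, fun h => h.charIn h3, h⟩)))⟩
  · exact ⟨F, hF1, hF2, Or.inr (Or.inr (Or.inr (Or.inr h)))⟩

/-- **Main theorem**, `p = 2`, composition factors, any field `𝕜`, any prime `l` -/
theorem two_factor [Finite G] {𝕜 : Type v} [Field 𝕜] {l : ℕ} (hl : l.Prime)
    (hO : OpTrivial 2 G)
    (h : Factors 2 G fun L _ => AltLieTwo 𝕜 l L ∨ SmallOut 2 L ∨ OrdFree 2 L ∨ Other 𝕜 2 l L) :
    HQ 𝕜 2 G := by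
  have : Fact (Nat.Prime 2) := ⟨Nat.prime_two⟩
  exact factor_mainS hl hO fun L _ hL hd => AltLieTwo.facS hl hL hd (h L hL hd)

/-- **Main theorem**, `p = 2`, components, any field `𝕜`, any prime `l` -/
theorem two_comp [Finite G] {𝕜 : Type v} [Field 𝕜] {l : ℕ} (hl : l.Prime)
    (hO : OpTrivial 2 G) (N : Subgroup G) [N.Normal]
    (h : RedComp 2 N fun L _ => AltLieTwo 𝕜 l L ∨ SmallOut 2 L ∨ OrdFree 2 L ∨ Other 𝕜 2 l L) :
    HQ 𝕜 2 G := by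
  have : Fact (Nat.Prime 2) := ⟨Nat.prime_two⟩
  have hO2 := reduced_op' N h.1 h.2.1
  exact comp_mainS hl hO N h.1 h.2.1 fun L hL hc =>
    AltLieTwo.facS hl hc (l2_dvd hO2 L hL) (h.2.2 L hL)

lemma known_two {𝕜 : Type v} [Field 𝕜] (h3 : (3 : 𝕜) = 0) {L : Type u} [Group L]
    (h : Known 2 L ∨ OrdFree 2 L ∨ Other 𝕜 2 5 L) :
    AltLieTwo 𝕜 5 L ∨ SmallOut 2 L ∨ OrdFree 2 L ∨ Other 𝕜 2 5 L := by
  rcases h with (h | h) | h | h
  · exact Or.inl (altLie_two h3 h)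
  · exact Or.inr (Or.inl h)
  · exact Or.inr (Or.inr (Or.inl h))
  · exact Or.inr (Or.inr (Or.inr h))

end

end Vale.Agent.P240.R2.H314
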